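import Vale.Agent.P101.Defs

/-! P101: a star homomorphism dominated in norm by another one factors through the closure of its
range. -/

open Filter Topology

namespace Vale.Agent.P101

variable {R B C : Type*} [Ring R] [StarRing R] [Algebra ℂ R]
  [CStarAlgebra B] [CStarAlgebra C]

theorem exists_dominated_hom (π : R →⋆ₐ[ℂ] B) (ψ : R →⋆ₐ[ℂ] C) (h : ∀ x, ‖ψ x‖ ≤ ‖π x‖) :
    ∃ φ : π.range.topologicalClosure →⋆ₐ[ℂ] C,
      ∀ z, (φ z : C) ∈ closure (Set.range ψ) ∧
        ∀ x, (z : B) = π x → φ z = ψ x := by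
  set Γ := (π.prod ψ).range.topologicalClosure with hΓ
  have hle : ∀ p ∈ Γ, ‖p.2‖ ≤ ‖p.1‖ := by
    intro p hp
    refine closure_minimal ?_ (isClosed_le continuous_snd.norm continuous_fst.norm) hp
    rintro _ ⟨x, rfl⟩
    exact h x
  have hrange : ∀ p ∈ Γ, p.2 ∈ closure (Set.range ψ) := by
    intro p hp
    refine closure_minimal ?_ (isClosed_closure.preimage continuous_snd) hp
    rintro _ ⟨x, rfl⟩
    exact subset_closure ⟨x, rfl⟩
  have hΓc : IsClosed (Γ : Set (B × C)) := StarSubalgebra.isClosed_topologicalClosure _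
  have : CompleteSpace Γ := hΓc.completeSpace_coe
  have hiso : Isometry (fun p : Γ => (p : B × C).1) := by
    refine Isometry.of_dist_eq fun p q => ?_
    have hs : ‖((p : B × C) - q).2‖ ≤ ‖((p : B × C) - q).1‖ := hle _ (sub_mem p.2 q.2)
    rw [Prod.fst_sub, Prod.snd_sub, ← dist_eq_norm, ← dist_eq_norm] at hs
    rw [Subtype.dist_eq, Prod.dist_eq, max_eq_left hs]
  have hsurj : ∀ z : π.range.topologicalClosure, ∃ p : Γ, (p : B × C).1 = z := by
    intro z
    refine closure_minimal ?_ hiso.isUniformInducing.isComplete_range.isClosed z.2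
    rintro _ ⟨x, rfl⟩
    exact ⟨⟨(π.prod ψ) x, StarSubalgebra.le_topologicalClosure _ ⟨x, rfl⟩⟩, rfl⟩
  choose g hg using hsurj
  have huniq : ∀ (z : π.range.topologicalClosure) (p : B × C), p ∈ Γ → p.1 = z →
      p.2 = (g z : B × C).2 := by
    intro z p hp hpz
    have := hle _ (sub_mem hp (g z).2)
    simp only [Prod.fst_sub, Prod.snd_sub, hpz, hg, sub_self, norm_zero, norm_le_zero_iff,
      sub_eq_zero] at this
    exact this
  refine ⟨{ toFun := fun z => (g z : B × C).2
            map_one' := (huniq 1 1 (one_mem _) rfl).symm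
            map_mul' := fun z w => (huniq _ _ (mul_mem (g z).2 (g w).2) (by simp [hg])).symm
            map_zero' := (huniq 0 0 (zero_mem _) rfl).symm
            map_add' := fun z w => (huniq _ _ (add_mem (g z).2 (g w).2) (by simp [hg])).symm
            commutes' := fun r => (huniq _ _ (algebraMap_mem _ r) rfl).symm
            map_star' := fun z => (huniq _ _ (star_mem (g z).2) (by simp [hg])).symm },
    fun z => ⟨hrange _ (g z).2, fun x hx => ?_⟩⟩
  exact (huniq z _ (StarSubalgebra.le_topologicalClosure _ ⟨x, rfl⟩) hx.symm).symm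

end Vale.Agent.P101
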