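import Vale.Agent.P101.Fomega.Reindex
import Vale.Agent.P101.Fomega.Extend

/-! P101: `F_ω(A)` has the copy property for separable `A`. -/

open Filter Topology BoundedContinuousFunction

namespace Vale.Agent.P101

variable {A : Type*} [CStarAlgebra A] {ω : Ultrafilter ℕ}

/-- The quotient map as a star homomorphism. -/
noncomputable def fomegaMk : centralSeq A ω →⋆ₐ[ℂ] Fomega A ω where
  toFun := Ideal.Quotient.mk (nullIdeal A ω)
  map_one' := map_one _
  map_mul' := map_mul _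
  map_zero' := map_zero _
  map_add' := map_add _
  commutes' _ := rfl
  map_star' _ := rfl

theorem hasCopies_fomega [TopologicalSpace.SeparableSpace A] (hω : (ω : Filter ℕ) ≤ atTop) :
    HasCopies (Fomega A ω) := by
  classical
  intro F S
  choose rep hrep using Ideal.Quotient.mk_surjective (I := nullIdeal A ω)
  let G : Set (centralSeq A ω) := rep '' F ∪ (fun x => star (rep x)) '' F
  let Y : Set (centralSeq A ω) := rep '' S
  have hG : G.Finite := (F.finite_toSet.image _).union (F.finite_toSet.image _)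
  have hY : Y.Finite := S.finite_toSet.image _
  have hGs : ∀ g ∈ G, star g ∈ G := by
    rintro g (⟨x, hx, rfl⟩ | ⟨x, hx, rfl⟩)
    · exact Or.inr ⟨x, hx, rfl⟩
    · exact Or.inl ⟨x, hx, (star_star _).symm⟩
  obtain ⟨e, he⟩ := exists_seq_dense_adjoin hG hGs
  obtain ⟨k, hkC, hkN, hkY⟩ := exists_reindex hω hG hY e
  set R₀ := StarAlgebra.adjoin ℂ G with hR₀
  let ρ : centralSeq A ω →⋆ₐ[ℂ] (ℕ →ᵇ A) := (reindex k).comp (centralSeq A ω).subtype
  have hR₀C : R₀ ≤ (centralSeq A ω).comap ρ := StarAlgebra.adjoin_le hkC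
  let π : R₀ →⋆ₐ[ℂ] Fomega A ω := fomegaMk.comp R₀.subtype
  let ψ : R₀ →⋆ₐ[ℂ] Fomega A ω :=
    fomegaMk.comp ((ρ.comp R₀.subtype).codRestrict (centralSeq A ω) fun x => hR₀C x.2)
  have hψ : ∀ x, ‖ψ x‖ ≤ ‖π x‖ := by
    intro x
    refine le_of_forall_pos_le_add fun ε hε => ?_
    obtain ⟨_, ⟨i, rfl⟩, hi⟩ := Metric.mem_closure_iff.1 (he x.2) (ε / 3) (by positivity)
    refine norm_mk_le_of_eventually _ ?_
    filter_upwards [hkN i (ε / 3) (by positivity)] with n hn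
    change ‖((x : centralSeq A ω) : ℕ →ᵇ A) (k n)‖ ≤ ‖π x‖ + ε
    rw [dist_eq_norm] at hi
    have h1 : ‖((x : centralSeq A ω) : ℕ →ᵇ A) (k n) - (e i : ℕ →ᵇ A) (k n)‖ ≤ ε / 3 :=
      (((x - e i : centralSeq A ω) : ℕ →ᵇ A).norm_coe_le_norm (k n)).trans hi.le
    have h2 : ‖Ideal.Quotient.mk (nullIdeal A ω) (e i) - π x‖ ≤ ε / 3 := by
      rw [norm_sub_rev]
      refine le_of_eq_of_le ?_
        ((Submodule.Quotient.norm_mk_le (nullIdeal A ω) ((x : centralSeq A ω) - e i)).trans hi.le)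
      rfl
    linarith [norm_le_norm_add_norm_sub' (((x : centralSeq A ω) : ℕ →ᵇ A) (k n))
      ((e i : ℕ →ᵇ A) (k n)),
      norm_le_norm_add_norm_sub' (Ideal.Quotient.mk (nullIdeal A ω) (e i)) (π x)]
  obtain ⟨φ, hφ⟩ := exists_dominated_hom π ψ hψ
  have hle : cstarGen (F : Set (Fomega A ω)) ≤ π.range.topologicalClosure := by
    refine StarSubalgebra.topologicalClosure_mono (StarAlgebra.adjoin_le fun x hx => ?_)
    exact ⟨⟨rep x, StarAlgebra.subset_adjoin ℂ G (Or.inl ⟨x, hx, rfl⟩)⟩, hrep x⟩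
  refine ⟨φ.comp (StarSubalgebra.inclusion hle), fun z b hb => ?_⟩
  refine closure_minimal ?_ (isClosed_eq (continuous_id.mul continuous_const)
    (continuous_const.mul continuous_id)) ((hφ (StarSubalgebra.inclusion hle z)).1)
  rintro _ ⟨x, rfl⟩
  show ψ x * b = b * ψ x
  have hcomm : ∀ g ∈ G, ∀ hg : ρ g ∈ centralSeq A ω,
      fomegaMk (⟨ρ g, hg⟩ : centralSeq A ω) * b = b * fomegaMk (⟨ρ g, hg⟩ : centralSeq A ω) := by
    intro g hg hgC
    rw [← hrep b]
    refine Ideal.Quotient.eq.2 ?_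
    exact hkY g hg (rep b) ⟨b, hb, rfl⟩
  obtain ⟨x, hx⟩ := x
  have hx' := mem_algebraAdjoin_of_mem_adjoin hGs hx
  induction hx' using Algebra.adjoin_induction with
  | mem g hg => exact hcomm g hg _
  | algebraMap r =>
    rw [show (⟨algebraMap ℂ (centralSeq A ω) r, hx⟩ : R₀) = algebraMap ℂ R₀ r from rfl,
      AlgHomClass.commutes]
    exact Algebra.commutes r b
  | add u v hu hv ihu ihv =>
    have hu' : u ∈ R₀ := Algebra.adjoin_le (S := R₀.toSubalgebra) (StarAlgebra.subset_adjoin ℂ G) hu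
    have hv' : v ∈ R₀ := Algebra.adjoin_le (S := R₀.toSubalgebra) (StarAlgebra.subset_adjoin ℂ G) hv
    rw [show (⟨u + v, hx⟩ : R₀) = ⟨u, hu'⟩ + ⟨v, hv'⟩ from rfl, map_add, add_mul, mul_add,
      ihu hu', ihv hv']
  | mul u v hu hv ihu ihv =>
    have hu' : u ∈ R₀ := Algebra.adjoin_le (S := R₀.toSubalgebra) (StarAlgebra.subset_adjoin ℂ G) hu
    have hv' : v ∈ R₀ := Algebra.adjoin_le (S := R₀.toSubalgebra) (StarAlgebra.subset_adjoin ℂ G) hv
    rw [show (⟨u * v, hx⟩ : R₀) = ⟨u, hu'⟩ * ⟨v, hv'⟩ from rfl, map_mul, mul_assoc, ihv hv',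
      ← mul_assoc, ihu hu', mul_assoc]

end Vale.Agent.P101
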