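import Vale.Agent.P101.Fomega.Defs

/-! P101: the quotient norm of `F_ω(A)` is the `ω`-limit of the norms, and it is a C*-norm. -/

open Filter Topology BoundedContinuousFunction

namespace Vale.Agent.P101

variable {A : Type*} [CStarAlgebra A] {ω : Ultrafilter ℕ}

instance isClosed_centralSeq : IsClosed (centralSeq A ω : Set (ℕ →ᵇ A)) := by
  refine isClosed_of_closure_subset fun x hx a => ?_
  rw [Metric.tendsto_nhds]
  intro ε hε
  obtain ⟨y, hy, hxy⟩ := Metric.mem_closure_iff.1 hx (ε / (4 * (‖a‖ + 1))) (by positivity)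
  filter_upwards [Metric.tendsto_nhds.1 (hy a) (ε / 2) (half_pos hε)] with n hn
  rw [dist_zero_right] at hn ⊢
  have h1 : ‖x n - y n‖ ≤ ε / (4 * (‖a‖ + 1)) :=
    ((x - y).norm_coe_le_norm n).trans (by rw [← dist_eq_norm]; exact hxy.le)
  have e : x n * a - a * x n = (x n - y n) * a - a * (x n - y n) + (y n * a - a * y n) := by
    noncomm_ring
  have h2 : ‖x n - y n‖ * ‖a‖ ≤ ε / 4 :=
    calc ‖x n - y n‖ * ‖a‖ ≤ ε / (4 * (‖a‖ + 1)) * (‖a‖ + 1) := by gcongr; linarith
      _ = ε / 4 := by field_simp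
  calc ‖x n * a - a * x n‖ ≤ ‖x n - y n‖ * ‖a‖ + ‖a‖ * ‖x n - y n‖ + ‖y n * a - a * y n‖ := by
        rw [e]
        refine (norm_add_le _ _).trans (add_le_add ((norm_sub_le _ _).trans ?_) le_rfl)
        exact add_le_add (norm_mul_le _ _) (norm_mul_le _ _)
    _ < ε := by linarith [mul_comm ‖a‖ ‖x n - y n‖]

noncomputable instance centralSeq.instCStarAlgebra : CStarAlgebra (centralSeq A ω) :=
  StarSubalgebra.cstarAlgebra _

instance isClosed_nullIdeal : IsClosed (nullIdeal A ω : Set (centralSeq A ω)) := by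
  refine isClosed_of_closure_subset fun x hx => ?_
  show Tendsto (fun n => ‖(x : ℕ →ᵇ A) n‖) ω (𝓝 0)
  rw [Metric.tendsto_nhds]
  intro ε hε
  obtain ⟨y, hy, hxy⟩ := Metric.mem_closure_iff.1 hx (ε / 2) (half_pos hε)
  filter_upwards [Metric.tendsto_nhds.1 (hy : Tendsto _ _ _) (ε / 2) (half_pos hε)] with n hn
  rw [Real.dist_0_eq_abs, abs_norm] at hn ⊢
  have h1 : ‖(x : ℕ →ᵇ A) n - (y : ℕ →ᵇ A) n‖ ≤ ε / 2 :=
    (((x - y : centralSeq A ω) : ℕ →ᵇ A).norm_coe_le_norm n).trans
      (by rw [dist_eq_norm] at hxy; exact hxy.le)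
  linarith [norm_le_norm_add_norm_sub' ((x : ℕ →ᵇ A) n) ((y : ℕ →ᵇ A) n)]

theorem norm_mk_le_of_eventually (x : centralSeq A ω) {c : ℝ}
    (h : ∀ᶠ n in (ω : Filter ℕ), ‖(x : ℕ →ᵇ A) n‖ ≤ c) :
    ‖Ideal.Quotient.mk (nullIdeal A ω) x‖ ≤ c := by
  classical
  obtain ⟨n₀, hn₀⟩ := h.exists
  have hc : 0 ≤ c := (norm_nonneg _).trans hn₀
  let f : ℕ → A := fun n => if ‖(x : ℕ →ᵇ A) n‖ ≤ c then (x : ℕ →ᵇ A) n else 0
  have hf : ∀ n, ‖f n‖ ≤ c := fun n => by
    by_cases hn : ‖(x : ℕ →ᵇ A) n‖ ≤ c <;> simp [f, hn, hc]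
  let y : ℕ →ᵇ A := BoundedContinuousFunction.ofNormedAddCommGroupDiscrete f c hf
  have hy : ∀ n, y n = f n := fun n => rfl
  have hxy : ∀ᶠ n in (ω : Filter ℕ), y n = (x : ℕ →ᵇ A) n :=
    h.mono fun n hn => by simp [hy, f, hn]
  have hyC : y ∈ centralSeq A ω := fun a =>
    (x.2 a).congr' (hxy.mono fun n hn => by simp only [hn])
  have hnull : x - (⟨y, hyC⟩ : centralSeq A ω) ∈ nullIdeal A ω :=
    tendsto_const_nhds.congr' (hxy.mono fun n hn => by simp [hn])
  rw [Ideal.Quotient.eq.2 hnull]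
  exact (Submodule.Quotient.norm_mk_le (nullIdeal A ω) (⟨y, hyC⟩ : centralSeq A ω)).trans
    ((BoundedContinuousFunction.norm_le hc).2 hf)

theorem eventually_norm_lt_of_norm_mk_lt (x : centralSeq A ω) {c : ℝ}
    (h : ‖Ideal.Quotient.mk (nullIdeal A ω) x‖ < c) :
    ∀ᶠ n in (ω : Filter ℕ), ‖(x : ℕ →ᵇ A) n‖ < c := by
  set δ := (c - ‖Ideal.Quotient.mk (nullIdeal A ω) x‖) / 2 with hδ
  have hδ0 : 0 < δ := by linarith [hδ]
  obtain ⟨y, hy, hyn⟩ := Submodule.Quotient.norm_mk_lt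
    (Ideal.Quotient.mk (nullIdeal A ω) x) hδ0
  have hnull : y - x ∈ nullIdeal A ω := Ideal.Quotient.eq.1 hy
  filter_upwards [Metric.tendsto_nhds.1 (hnull : Tendsto _ _ _) δ hδ0] with n hn
  rw [Real.dist_0_eq_abs, abs_norm] at hn
  change ‖(y : ℕ →ᵇ A) n - (x : ℕ →ᵇ A) n‖ < δ at hn
  have h1 : ‖(y : ℕ →ᵇ A) n‖ ≤ ‖y‖ := (y : ℕ →ᵇ A).norm_coe_le_norm n
  linarith [norm_le_norm_add_norm_sub ((y : ℕ →ᵇ A) n) ((x : ℕ →ᵇ A) n), hδ]

theorem norm_fomega_mul_le (x y : Fomega A ω) : ‖x * y‖ ≤ ‖x‖ * ‖y‖ := by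
  refine le_of_forall_pos_le_add fun ε hε => ?_
  set η := min 1 (ε / (‖x‖ + ‖y‖ + 1)) with hη
  have hη0 : 0 < η := lt_min one_pos (by positivity)
  obtain ⟨a, rfl, ha⟩ := Submodule.Quotient.norm_mk_lt x hη0
  obtain ⟨b, rfl, hb⟩ := Submodule.Quotient.norm_mk_lt y hη0
  refine ((Submodule.Quotient.norm_mk_le (nullIdeal A ω) (a * b)).trans (norm_mul_le a b)).trans ?_
  refine (mul_le_mul ha.le hb.le (norm_nonneg _) (by positivity)).trans ?_
  set X := ‖(Submodule.Quotient.mk a : Fomega A ω)‖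
  set Y := ‖(Submodule.Quotient.mk b : Fomega A ω)‖
  have hX : 0 ≤ X := norm_nonneg _
  have hY : 0 ≤ Y := norm_nonneg _
  have h1 : η * (X + Y + 1) ≤ ε := (le_div_iff₀ (by positivity)).1 (min_le_right _ _)
  nlinarith [min_le_left 1 (ε / (X + Y + 1))]

noncomputable instance instStarFomega : Star (Fomega A ω) where
  star := Quotient.map' star fun a b hab => by
    rw [Submodule.quotientRel_def] at hab ⊢
    show Tendsto _ _ _
    have : Tendsto (fun n => ‖((a - b : centralSeq A ω) : ℕ →ᵇ A) n‖) ω (𝓝 0) := hab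
    refine this.congr fun n => ?_
    simp [← star_sub, norm_star]

theorem star_mk (x : centralSeq A ω) :
    star (Ideal.Quotient.mk (nullIdeal A ω) x) = Ideal.Quotient.mk (nullIdeal A ω) (star x) :=
  rfl

noncomputable instance instStarRingFomega : StarRing (Fomega A ω) where
  star_involutive x := by
    obtain ⟨a, rfl⟩ := Ideal.Quotient.mk_surjective x
    rw [star_mk, star_mk, star_star]
  star_mul x y := by
    obtain ⟨a, rfl⟩ := Ideal.Quotient.mk_surjective x
    obtain ⟨b, rfl⟩ := Ideal.Quotient.mk_surjective y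
    rw [← map_mul, star_mk, star_mk, star_mk, star_mul, map_mul]
  star_add x y := by
    obtain ⟨a, rfl⟩ := Ideal.Quotient.mk_surjective x
    obtain ⟨b, rfl⟩ := Ideal.Quotient.mk_surjective y
    rw [← map_add, star_mk, star_mk, star_mk, star_add, map_add]

noncomputable instance instNormedRingFomega : NormedRing (Fomega A ω) :=
  { Submodule.Quotient.normedAddCommGroup (nullIdeal A ω),
    (inferInstance : Ring (Fomega A ω)) with
    dist_eq := dist_eq_norm_neg_add
    norm_mul_le := norm_fomega_mul_le }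

instance instCompleteSpaceFomega : CompleteSpace (Fomega A ω) :=
  Submodule.Quotient.completeSpace _

instance instCStarRingFomega : CStarRing (Fomega A ω) where
  norm_mul_self_le x := by
    obtain ⟨a, rfl⟩ := Ideal.Quotient.mk_surjective x
    rw [star_mk, ← map_mul]
    set X := ‖Ideal.Quotient.mk (nullIdeal A ω) a‖
    refine le_of_forall_pos_le_add fun ε hε => ?_
    set c := ‖Ideal.Quotient.mk (nullIdeal A ω) (star a * a)‖ + ε with hc
    have hc0 : 0 ≤ c := by positivity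
    have hX : X ≤ Real.sqrt c := by
      refine norm_mk_le_of_eventually a ?_
      filter_upwards [eventually_norm_lt_of_norm_mk_lt (star a * a)
        (show ‖Ideal.Quotient.mk (nullIdeal A ω) (star a * a)‖ < c by linarith [hc])] with n hn
      refine Real.le_sqrt_of_sq_le ?_
      rw [sq, ← CStarRing.norm_star_mul_self]
      exact hn.le
    calc X * X ≤ Real.sqrt c * Real.sqrt c := mul_self_le_mul_self (norm_nonneg _) hX
      _ = c := Real.mul_self_sqrt hc0

noncomputable instance instAlgebraFomega : Algebra ℂ (Fomega A ω) :=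
  Ideal.Quotient.algebra ℂ

noncomputable instance instNormedAlgebraFomega : NormedAlgebra ℂ (Fomega A ω) where
  __ := instAlgebraFomega
  norm_smul_le c x := by
    have := Submodule.Quotient.normedSpace (nullIdeal A ω) ℂ
    exact norm_smul_le c x

instance instStarModuleFomega : StarModule ℂ (Fomega A ω) where
  star_smul c x := by
    obtain ⟨a, rfl⟩ := Ideal.Quotient.mk_surjective x
    change star (Ideal.Quotient.mk (nullIdeal A ω) (c • a)) =
      Ideal.Quotient.mk (nullIdeal A ω) (star c • star a)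
    rw [star_mk, star_smul]

noncomputable instance instCStarAlgebraFomega : CStarAlgebra (Fomega A ω) where

instance instT2SpaceFomega : T2Space (Fomega A ω) :=
  @TopologicalSpace.t2Space_of_metrizableSpace _ _ _

theorem nontrivial_fomega [Nontrivial A] : Nontrivial (Fomega A ω) := by
  refine ⟨⟨Ideal.Quotient.mk (nullIdeal A ω) 1, 0, fun h => ?_⟩⟩
  have h0 : ‖Ideal.Quotient.mk (nullIdeal A ω) (1 : centralSeq A ω)‖ < 1 := by
    rw [h, norm_zero]; exact one_pos
  obtain ⟨n, hn⟩ := (eventually_norm_lt_of_norm_mk_lt _ h0).exists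
  simp at hn

end Vale.Agent.P101
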