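import Mathlib

/-! P101: the norm central sequence algebra `F_ω(A) = A_ω ∩ A'`. -/

open Filter Topology BoundedContinuousFunction

namespace Vale.Agent.P101

variable (A : Type*) [CStarAlgebra A] (ω : Ultrafilter ℕ)

/-- The bounded sequences that asymptotically commute with each element of `A` along `ω`:
representatives of the elements of `A_ω` commuting with `A`. -/
def centralSeq : StarSubalgebra ℂ (ℕ →ᵇ A) where
  carrier := {x | ∀ a : A, Tendsto (fun n => x n * a - a * x n) ω (𝓝 0)}
  mul_mem' {x y} hx hy a := by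
    have h₁ : Tendsto (fun n => x n * (y n * a - a * y n)) ω (𝓝 0) :=
      squeeze_zero_norm (fun n => (norm_mul_le _ _).trans
        (mul_le_mul_of_nonneg_right (x.norm_coe_le_norm n) (norm_nonneg _)))
        (by simpa using ((hy a).norm.const_mul ‖x‖))
    have h₂ : Tendsto (fun n => (x n * a - a * x n) * y n) ω (𝓝 0) :=
      squeeze_zero_norm (fun n => (norm_mul_le _ _).trans
        (mul_le_mul_of_nonneg_left (y.norm_coe_le_norm n) (norm_nonneg _)))
        (by simpa using ((hx a).norm.mul_const ‖y‖))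
    have h := h₁.add h₂
    rw [add_zero] at h
    refine h.congr fun n => ?_
    simp only [BoundedContinuousFunction.mul_apply]
    noncomm_ring
  add_mem' {x y} hx hy a := by
    simpa [add_mul, mul_add, add_sub_add_comm] using (hx a).add (hy a)
  algebraMap_mem' r a := by
    have : ∀ n : ℕ, (algebraMap ℂ (ℕ →ᵇ A) r) n * a - a * (algebraMap ℂ (ℕ →ᵇ A) r) n = 0 := by
      intro n
      simp [Algebra.algebraMap_eq_smul_one]
    simp
  star_mem' {x} hx a := by
    have h := ((hx (star a)).star).neg
    simpa [star_sub, star_mul, neg_sub] using h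

/-- The central sequences tending to zero in norm along `ω`. -/
noncomputable def nullIdeal : Ideal (centralSeq A ω) where
  carrier := {x | Tendsto (fun n => ‖(x : ℕ →ᵇ A) n‖) ω (𝓝 0)}
  add_mem' {x y} hx hy := squeeze_zero (fun _ => norm_nonneg _)
    (fun n => norm_add_le ((x : ℕ →ᵇ A) n) ((y : ℕ →ᵇ A) n))
    (by simpa using Filter.Tendsto.add hx hy)
  zero_mem' := by simp
  smul_mem' c x hx := squeeze_zero (fun _ => norm_nonneg _)
    (fun n => (norm_mul_le ((c : ℕ →ᵇ A) n) ((x : ℕ →ᵇ A) n)).trans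
      (mul_le_mul_of_nonneg_right ((c : ℕ →ᵇ A).norm_coe_le_norm n) (norm_nonneg _)))
    (by simpa using Filter.Tendsto.const_mul ‖(c : ℕ →ᵇ A)‖ hx)

instance nullIdeal_isTwoSided : (nullIdeal A ω).IsTwoSided := ⟨fun {x} b hx =>
  squeeze_zero (fun _ => norm_nonneg _)
    (fun n => (norm_mul_le ((x : ℕ →ᵇ A) n) ((b : ℕ →ᵇ A) n)).trans
      (mul_le_mul_of_nonneg_left ((b : ℕ →ᵇ A).norm_coe_le_norm n) (norm_nonneg _)))
    (by simpa using Filter.Tendsto.mul_const ‖(b : ℕ →ᵇ A)‖ hx)⟩

/-- The norm central sequence algebra, with the quotient norm. -/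
abbrev Fomega := centralSeq A ω ⧸ nullIdeal A ω

end Vale.Agent.P101
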