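import Vale.Agent.P101.Fomega.Defs

/-! P101: characters and relations of `F_ω(A) = A_ω ∩ A'` written on representatives. -/

open Filter Topology BoundedContinuousFunction

namespace Vale.Agent.P101

variable (A : Type*) [CStarAlgebra A] (ω : Ultrafilter ℕ)

/-- A character of `F_ω(A)`: a unital star homomorphism on the central sequences vanishing on
those that tend to zero in norm along `ω`. -/
def FomegaCharacter : Type _ :=
  {χ : centralSeq A ω →⋆ₐ[ℂ] ℂ //
    ∀ x : centralSeq A ω, Tendsto (fun n => ‖(x : ℕ →ᵇ A) n‖) ω (𝓝 0) → χ x = 0}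

/-- The classes of `c`, `s` in `F_ω(A)` satisfy `c² = 0`, `s* s = 1 - c* c - c c*`, `c* c s = s`. -/
def SeqDimDropPair (c s : ℕ →ᵇ A) : Prop :=
  Tendsto (fun n => c n * c n) ω (𝓝 0) ∧
    Tendsto (fun n => star (s n) * s n - (1 - star (c n) * c n - c n * star (c n))) ω (𝓝 0) ∧
      Tendsto (fun n => star (c n) * c n * s n - s n) ω (𝓝 0)

end Vale.Agent.P101
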