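import Vale.Agent.P101.Assemble
import Vale.Agent.P101.Fomega.Instances
import Vale.Agent.P101.Fomega.Seq

/-! P101: the dictionary between the quotient `F_ω(A)` and representatives, and the theorem. -/

open Filter Topology BoundedContinuousFunction

namespace Vale.Agent.P101

variable {A : Type*} [CStarAlgebra A] {ω : Ultrafilter ℕ}

theorem isEmpty_fomegaCharacter_iff :
    IsEmpty (FomegaCharacter A ω) ↔ IsEmpty (Fomega A ω →⋆ₐ[ℂ] ℂ) := by
  constructor
  · intro h
    refine ⟨fun ψ => h.false ⟨ψ.comp fomegaMk, fun x hx => ?_⟩⟩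
    show ψ (fomegaMk x) = 0
    rw [show fomegaMk x = (0 : Fomega A ω) from Ideal.Quotient.eq_zero_iff_mem.2 hx, map_zero]
  · intro h
    refine ⟨fun χ => h.false ?_⟩
    refine
      { toFun := Ideal.Quotient.lift (nullIdeal A ω)
          (χ.1.toAlgHom.toRingHom) (fun x hx => χ.2 x hx)
        map_one' := map_one _
        map_mul' := map_mul _
        map_zero' := map_zero _
        map_add' := map_add _
        commutes' := fun r => ?_
        map_star' := fun x => ?_ }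
    · exact AlgHomClass.commutes χ.1 r
    · obtain ⟨y, rfl⟩ := Ideal.Quotient.mk_surjective x
      exact map_star χ.1 y

theorem mk_eq_iff (x y : centralSeq A ω) :
    fomegaMk x = fomegaMk y ↔
      Tendsto (fun n => (x : ℕ →ᵇ A) n - (y : ℕ →ᵇ A) n) ω (𝓝 0) := by
  rw [show (fomegaMk x = fomegaMk y) ↔ x - y ∈ nullIdeal A ω from Ideal.Quotient.eq,
    tendsto_zero_iff_norm_tendsto_zero]
  rfl

theorem dimDropPair_mk_iff (c s : centralSeq A ω) :
    DimDropPair (fomegaMk c) (fomegaMk s) ↔ SeqDimDropPair A ω (c : ℕ →ᵇ A) (s : ℕ →ᵇ A) := by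
  unfold DimDropPair SeqDimDropPair
  rw [← map_mul, ← map_zero (fomegaMk (A := A) (ω := ω)),
    ← map_star, ← map_star, ← map_mul, ← map_mul, ← map_mul, ← map_mul,
    ← map_one (fomegaMk (A := A) (ω := ω)), ← map_sub, ← map_sub, mk_eq_iff, mk_eq_iff, mk_eq_iff]
  simp [BoundedContinuousFunction.coe_one]

theorem exists_seqDimDropPair_iff :
    (∃ c s : Fomega A ω, DimDropPair c s) ↔
      ∃ c s : ℕ →ᵇ A, c ∈ centralSeq A ω ∧ s ∈ centralSeq A ω ∧ SeqDimDropPair A ω c s := by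
  constructor
  · rintro ⟨c, s, h⟩
    obtain ⟨c, rfl⟩ := Ideal.Quotient.mk_surjective c
    obtain ⟨s, rfl⟩ := Ideal.Quotient.mk_surjective s
    exact ⟨c, s, c.2, s.2, (dimDropPair_mk_iff c s).1 h⟩
  · rintro ⟨c, s, hc, hs, h⟩
    exact ⟨fomegaMk ⟨c, hc⟩, fomegaMk ⟨s, hs⟩, (dimDropPair_mk_iff ⟨c, hc⟩ ⟨s, hs⟩).2 h⟩

theorem characterless_iff_seqPair [TopologicalSpace.SeparableSpace A]
    (hω : (ω : Filter ℕ) ≤ atTop) :
    IsEmpty (FomegaCharacter A ω) ↔
      ∃ c s : ℕ →ᵇ A, c ∈ centralSeq A ω ∧ s ∈ centralSeq A ω ∧ SeqDimDropPair A ω c s := by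
  rw [isEmpty_fomegaCharacter_iff, ← exists_seqDimDropPair_iff]
  exact ⟨exists_dimDropPair (hasCopies_fomega hω), isEmpty_of_dimDropPair⟩

end Vale.Agent.P101
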