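import Vale.Agent.P101.Fomega.Norm

/-! P101: separability of finitely generated algebras of sequences and reindexing along `k`. -/

open Filter Topology BoundedContinuousFunction

namespace Vale.Agent.P101

variable {A : Type*} [CStarAlgebra A] {ω : Ultrafilter ℕ}

/-- Composition of bounded sequences with `k`. -/
noncomputable def reindex (k : ℕ → ℕ) : (ℕ →ᵇ A) →⋆ₐ[ℂ] (ℕ →ᵇ A) where
  toFun x := x.compContinuous ⟨k, continuous_of_discreteTopology⟩
  map_one' := rfl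
  map_mul' _ _ := rfl
  map_zero' := rfl
  map_add' _ _ := rfl
  commutes' _ := rfl
  map_star' _ := rfl

theorem mem_algebraAdjoin_of_mem_adjoin {R : Type*} [Ring R] [StarRing R] [Algebra ℂ R]
    [StarModule ℂ R] {s : Set R} (hstar : ∀ x ∈ s, star x ∈ s) {x : R}
    (hx : x ∈ StarAlgebra.adjoin ℂ s) : x ∈ Algebra.adjoin ℂ s := by
  have hstar' : star s = s := by
    ext y
    exact ⟨fun hy => by simpa using hstar _ (Set.mem_star.1 hy), fun hy => hstar y hy⟩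
  have := StarAlgebra.adjoin_toSubalgebra ℂ s
  rw [hstar', Set.union_self] at this
  rw [← this]
  exact hx

theorem exists_seq_dense_adjoin {R : Type*} [CStarAlgebra R] {s : Set R} (hs : s.Finite)
    (hstar : ∀ x ∈ s, star x ∈ s) :
    ∃ e : ℕ → R, (StarAlgebra.adjoin ℂ s : Set R) ⊆ closure (Set.range e) := by
  have h1 : (Submonoid.closure s : Set R).Countable := by
    have := hs.countable.to_subtype
    refine (Set.countable_range fun l : List s => (l.map Subtype.val).prod).mono fun x hx => ?_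
    obtain ⟨l, hl, rfl⟩ := Submonoid.exists_list_of_mem_closure hx
    exact ⟨l.attach.map fun p => ⟨p.1, hl _ p.2⟩, by
      simp only [List.map_map, Function.comp_def, List.attach_map_subtype_val]⟩
  obtain ⟨c, hc, hsub⟩ := (h1.isSeparable).span (R := ℂ)
  obtain ⟨e, he⟩ := (hc.insert 0).exists_eq_range (Set.insert_nonempty _ _)
  refine ⟨e, fun x hx => ?_⟩
  have hx' : x ∈ Subalgebra.toSubmodule (Algebra.adjoin ℂ s) :=
    mem_algebraAdjoin_of_mem_adjoin hstar hx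
  rw [Algebra.adjoin_eq_span] at hx'
  rw [← he]
  exact closure_mono (Set.subset_insert _ _) (hsub hx')

theorem exists_reindex [TopologicalSpace.SeparableSpace A] (hω : (ω : Filter ℕ) ≤ atTop)
    {G : Set (centralSeq A ω)} (hG : G.Finite) {Y : Set (centralSeq A ω)} (hY : Y.Finite)
    (e : ℕ → centralSeq A ω) :
    ∃ k : ℕ → ℕ, (∀ g ∈ G, reindex k (g : ℕ →ᵇ A) ∈ centralSeq A ω) ∧
      (∀ i, ∀ ε > 0, ∀ᶠ n in (ω : Filter ℕ),
        ‖(e i : ℕ →ᵇ A) (k n)‖ ≤ ‖Ideal.Quotient.mk (nullIdeal A ω) (e i)‖ + ε) ∧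
      ∀ g ∈ G, ∀ y ∈ Y, Tendsto
        (fun n => ‖(g : ℕ →ᵇ A) (k n) * (y : ℕ →ᵇ A) n - (y : ℕ →ᵇ A) n * (g : ℕ →ᵇ A) (k n)‖)
        ω (𝓝 0) := by
  obtain ⟨a, ha⟩ := TopologicalSpace.exists_dense_seq A
  have hk : ∀ n : ℕ, ∃ m,
      (∀ i ∈ Finset.range (n + 1), ‖(e i : ℕ →ᵇ A) m‖ <
        ‖Ideal.Quotient.mk (nullIdeal A ω) (e i)‖ + 1 / (n + 1)) ∧
      (∀ g ∈ G, ∀ i ∈ Finset.range (n + 1),
        ‖(g : ℕ →ᵇ A) m * a i - a i * (g : ℕ →ᵇ A) m‖ < 1 / (n + 1)) ∧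
      ∀ g ∈ G, ∀ y ∈ Y,
        ‖(g : ℕ →ᵇ A) m * (y : ℕ →ᵇ A) n - (y : ℕ →ᵇ A) n * (g : ℕ →ᵇ A) m‖ < 1 / (n + 1) := by
    intro n
    have hn : (0 : ℝ) < 1 / (n + 1) := by positivity
    have hg : ∀ g : centralSeq A ω, ∀ b : A, ∀ᶠ m in (ω : Filter ℕ),
        ‖(g : ℕ →ᵇ A) m * b - b * (g : ℕ →ᵇ A) m‖ < 1 / (n + 1) := fun g b =>
      ((g.2 b).norm.eventually_lt_const (by simpa using hn))
    refine ((((Finset.range (n + 1)).eventually_all).2 fun i _ =>
      eventually_norm_lt_of_norm_mk_lt (e i) (lt_add_of_pos_right _ hn)).and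
      ((hG.eventually_all.2 fun g _ => ((Finset.range (n + 1)).eventually_all).2
        fun i _ => hg g (a i)).and
      (hG.eventually_all.2 fun g _ => hY.eventually_all.2 fun y _ => hg g _))).exists
  choose k hk1 hk2 hk3 using hk
  have hlim : Tendsto (fun n : ℕ => (1 : ℝ) / (n + 1)) ω (𝓝 0) :=
    tendsto_one_div_add_atTop_nhds_zero_nat.mono_left hω
  refine ⟨k, fun g hg b => ?_, fun i ε hε => ?_, fun g hg y hy => ?_⟩
  · rw [Metric.tendsto_nhds]
    intro ε hε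
    obtain ⟨i, hi⟩ : ∃ i, dist b (a i) < ε / (4 * (‖(g : ℕ →ᵇ A)‖ + 1)) := by
      obtain ⟨_, ⟨i, rfl⟩, hi⟩ := Metric.mem_closure_iff.1 (ha b)
        (ε / (4 * (‖(g : ℕ →ᵇ A)‖ + 1))) (by positivity)
      exact ⟨i, hi⟩
    filter_upwards [hω (eventually_ge_atTop i), hlim.eventually_lt_const (half_pos hε)]
      with n hn hn'
    rw [dist_zero_right]
    change ‖(g : ℕ →ᵇ A) (k n) * b - b * (g : ℕ →ᵇ A) (k n)‖ < ε
    have h1 := hk2 n g hg i (Finset.mem_range.2 (Nat.lt_succ_of_le hn))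
    have h2 := (g : ℕ →ᵇ A).norm_coe_le_norm (k n)
    generalize (g : ℕ →ᵇ A) (k n) = u at h1 h2 ⊢
    generalize ‖(g : ℕ →ᵇ A)‖ = K at hi h2
    have hK : 0 ≤ K := (norm_nonneg u).trans h2
    have e' : u * b - b * u = u * (b - a i) - (b - a i) * u + (u * a i - a i * u) := by
      noncomm_ring
    have h3 : ‖u‖ * ‖b - a i‖ ≤ ε / 4 :=
      calc ‖u‖ * ‖b - a i‖ ≤ (K + 1) * (ε / (4 * (K + 1))) := by
            rw [← dist_eq_norm]; gcongr; linarith
        _ = ε / 4 := by field_simp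
    calc ‖u * b - b * u‖ ≤ ‖u‖ * ‖b - a i‖ + ‖b - a i‖ * ‖u‖ + ‖u * a i - a i * u‖ := by
          rw [e']
          refine (norm_add_le _ _).trans (add_le_add ((norm_sub_le _ _).trans ?_) le_rfl)
          exact add_le_add (norm_mul_le _ _) (norm_mul_le _ _)
      _ < ε := by linarith [mul_comm ‖u‖ ‖b - a i‖]
  · filter_upwards [hω (eventually_ge_atTop i), hlim.eventually_lt_const hε] with n hn hn'
    exact (hk1 n i (Finset.mem_range.2 (Nat.lt_succ_of_le hn))).le.trans (by linarith)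
  · exact squeeze_zero (fun n => norm_nonneg _) (fun n => (hk3 n g hg y hy).le) hlim

end Vale.Agent.P101
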